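import Vale.Agent.Lib.P248S.SDefs

/-! # P248 unit I1: the segment `[-1,1]` in `ℝ^1` -/

namespace P248S
open MeasureTheory

/-- The segment `[-1,1]` in `ℝ^1 = Fin 1 → ℝ`. -/
def seg : Set (Fin 1 → ℝ) := {x | |x 0| ≤ 1}

theorem seg_eq_Icc : seg = Set.Icc (fun _ => (-1 : ℝ)) (fun _ => (1 : ℝ)) := by
  ext x
  simp only [seg, Set.mem_ofPred_eq, Set.mem_Icc, Pi.le_def, abs_le]
  constructor
  · rintro ⟨h1, h2⟩
    refine ⟨fun i => ?_, fun i => ?_⟩
    · rw [Subsingleton.elim i 0]; exact h1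
    · rw [Subsingleton.elim i 0]; exact h2
  · rintro ⟨h1, h2⟩
    exact ⟨h1 0, h2 0⟩

/-- I1a.  `seg = Set.Icc (fun _ => -1) (fun _ => 1) = Metric.closedBall 0 1` (sup norm). -/
theorem symBody_seg : SymBody seg := by
  refine ⟨?_, ?_, ?_, ?_⟩
  · rw [seg_eq_Icc]; exact isCompact_Icc
  · rw [seg_eq_Icc]; exact convex_Icc _ _
  · refine ⟨0, ?_⟩
    rw [mem_interior]
    refine ⟨{x | |x 0| < 1}, ?_, ?_, ?_⟩
    · intro x hx
      have hx' : |x 0| < 1 := hx
      exact hx'.le
    · exact isOpen_lt (by fun_prop) continuous_const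
    · simp
  · intro x hx
    simpa [seg] using hx

/-- I1b.  `Real.volume_Icc_pi` or `Real.volume_pi_closedBall`. -/
theorem volume_seg : volume seg = 2 := by
  rw [seg_eq_Icc, Real.volume_Icc_pi]
  norm_num

/-- I1c.  `x ⬝ᵥ y = x 0 * y 0` (`Fin.sum_univ_one`); test with `x = ±1`. -/
theorem polar_seg : polar seg = seg := by
  ext y
  simp only [polar, seg, Set.mem_ofPred_eq, dotProduct, Fin.sum_univ_one]
  constructor
  · intro h
    rw [abs_le]
    have h1 := h (fun _ => 1) (by simp)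
    have h2 := h (fun _ => -1) (by simp)
    constructor <;> linarith
  · intro hy x hx
    calc x 0 * y 0 ≤ |x 0 * y 0| := le_abs_self _
      _ = |x 0| * |y 0| := abs_mul _ _
      _ ≤ 1 * 1 := mul_le_mul hx hy (abs_nonneg _) zero_le_one
      _ = 1 := one_mul _

theorem phi_seg : phi seg = 1 := by
  unfold phi volProd
  rw [polar_seg, volume_seg]
  norm_num

end P248S
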