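import Vale.Agent.Lib.P248S.SDefs

/-! # P248 units R1-R3: relabelling of coordinates -/

namespace P248S
open MeasureTheory
variable {ι κ : Type*} [Fintype ι] [Fintype κ]

/-- R1. `z ↦ z ∘ e` is a linear homeomorphism (`Homeomorph.piCongrLeft` / `LinearEquiv.funCongrLeft`):
preimages of compact / convex / symmetric sets and of sets with interior points are such. -/
theorem symBody_reix (e : ι ≃ κ) (K : Set (ι → ℝ)) (hK : SymBody K) : SymBody (reix e K) := by
  obtain ⟨hc, hconv, ⟨x0, hx0⟩, hsym⟩ := hK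
  let h : (κ → ℝ) ≃ₜ (ι → ℝ) := (Homeomorph.piCongrLeft (Y := fun _ : κ => ℝ) e).symm
  have hpre : reix e K = h ⁻¹' K := by
    ext z
    rfl
  refine ⟨?_, ?_, ?_, ?_⟩
  · rw [hpre]
    exact h.isCompact_preimage.2 hc
  · have : reix e K = (LinearMap.funLeft ℝ ℝ e) ⁻¹' K := by
      ext z
      rfl
    rw [this]
    exact hconv.linear_preimage _
  · rw [hpre, ← h.preimage_interior]
    exact ⟨h.symm x0, by simpa using hx0⟩
  · intro x hx
    exact hsym _ hx

/-- R2. `MeasureTheory.volume_measurePreserving_piCongrLeft` (see `P254b/Reindex.lean`: `reMap`, `reMap_mp`). -/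
theorem volume_reix (e : ι ≃ κ) (K : Set (ι → ℝ)) : volume (reix e K) = volume K := by
  have hmp := (volume_measurePreserving_piCongrLeft (fun _ : κ => ℝ) e).symm
  have hpre : reix e K = (MeasurableEquiv.piCongrLeft (fun _ : κ => ℝ) e).symm ⁻¹' K := by
    ext z
    rfl
  rw [hpre]
  exact hmp.measure_preimage_equiv K

/-- R3. `Equiv.sum_comp`. -/
theorem polar_reix (e : ι ≃ κ) (K : Set (ι → ℝ)) : polar (reix e K) = reix e (polar K) := by
  have key : ∀ x y : κ → ℝ, x ⬝ᵥ y = (fun i => x (e i)) ⬝ᵥ (fun i => y (e i)) := by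
    intro x y
    unfold dotProduct
    exact (Equiv.sum_comp e (fun k => x k * y k)).symm
  ext y
  constructor
  · intro hy x hx
    have h1 := hy (fun k => x (e.symm k)) (by
      show (fun i => x (e.symm (e i))) ∈ K
      simpa using hx)
    rw [key] at h1
    simpa using h1
  · intro hy x hx
    rw [key]
    exact hy _ hx

theorem volProd_reix (e : ι ≃ κ) (K : Set (ι → ℝ)) : volProd (reix e K) = volProd K := by
  unfold volProd
  rw [polar_reix, volume_reix, volume_reix]

theorem phi_reix (e : ι ≃ κ) (K : Set (ι → ℝ)) : phi (reix e K) = phi K := by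
  unfold phi
  rw [volProd_reix, Fintype.card_congr e]

theorem prodF_eq {n m : ℕ} (K : Set (Fin n → ℝ)) (L : Set (Fin m → ℝ)) :
    prodF K L = reix finSumFinEquiv (prodG K L) := by
  ext z
  simp [prodF, reix, prodG]

end P248S
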