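import Vale.Agent.Lib.P248S.Prod
import Vale.Agent.Lib.P248S.Reix
import Vale.Agent.Lib.P248S.Interval

/-! # P248: powers of a body and the tensor power trick -/

namespace P248S
open MeasureTheory

theorem symBody_prodF {n m : ℕ} (K : Set (Fin n → ℝ)) (L : Set (Fin m → ℝ))
    (hK : SymBody K) (hL : SymBody L) : SymBody (prodF K L) := by
  rw [prodF_eq]
  exact symBody_reix _ _ (symBody_prodG K L hK hL)

theorem phi_prodF {n m : ℕ} (hn : 0 < n) (hm : 0 < m) (K : Set (Fin n → ℝ)) (L : Set (Fin m → ℝ))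
    (hK : SymBody K) (hL : SymBody L) : phi (prodF K L) = phi K * phi L := by
  have : Nonempty (Fin n) := ⟨⟨0, hn⟩⟩
  have : Nonempty (Fin m) := ⟨⟨0, hm⟩⟩
  rw [prodF_eq, phi_reix, phi_prodG K L hK hL]

theorem phi_nonneg {ι : Type*} [Fintype ι] (K : Set (ι → ℝ)) : 0 ≤ phi K := by
  unfold phi volProd
  positivity

/-- All powers `K^(N+1)` of a symmetric body, as bodies in `ℝ^((N+1) n)`. -/
theorem pow_body {n : ℕ} (hn : 0 < n) (K : Set (Fin n → ℝ)) (hK : SymBody K) (N : ℕ) :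
    ∃ L : Set (Fin ((N + 1) * n) → ℝ), SymBody L ∧ phi L = phi K ^ (N + 1) := by
  induction N with
  | zero =>
    have h : n = (0 + 1) * n := by simp
    exact ⟨reix (finCongr h) K, symBody_reix _ _ hK, by rw [phi_reix]; simp⟩
  | succ N ih =>
    obtain ⟨L, hL, hphi⟩ := ih
    have h : (N + 1) * n + n = (N + 1 + 1) * n := by ring
    have hpos : 0 < (N + 1) * n := Nat.mul_pos (Nat.succ_pos N) hn
    refine ⟨reix (finCongr h) (prodF L K), symBody_reix _ _ (symBody_prodF L K hL hK), ?_⟩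
    rw [phi_reix, phi_prodF hpos hn L K hL hK, hphi]
    ring

/-- In every dimension `m ≥ 1` there is a symmetric body (a cube) with `phi = 1`. -/
theorem exists_unit_body {m : ℕ} (hm : 0 < m) :
    ∃ L : Set (Fin m → ℝ), SymBody L ∧ phi L = 1 := by
  obtain ⟨N, rfl⟩ : ∃ N, m = N + 1 := ⟨m - 1, by omega⟩
  obtain ⟨L, hL, hphi⟩ := pow_body (n := 1) one_pos seg symBody_seg N
  have h : (N + 1) * 1 = N + 1 := by ring
  exact ⟨reix (finCongr h) L, symBody_reix _ _ hL, by rw [phi_reix, hphi, phi_seg, one_pow]⟩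

/-- The tensor power trick. -/
theorem tensor_trick
    (H : ∀ θ : ℝ, 0 < θ → θ < 1 → ∃ c : ℝ, 0 < c ∧ ∀ n : ℕ, 0 < n →
      ∀ K : Set (Fin n → ℝ), SymBody K → c * θ ^ n ≤ phi K)
    (n : ℕ) (hn : 0 < n) (K : Set (Fin n → ℝ)) (hK : SymBody K) : 1 ≤ phi K := by
  by_contra hlt
  rw [not_le] at hlt
  set a := phi K with ha
  have ha0 : 0 ≤ a := phi_nonneg K
  have hnR : (0 : ℝ) < n := by exact_mod_cast hn
  set x : ℝ := -((1 - a) / (2 * n)) with hx
  have hx1 : (1 - a) / (2 * n) ≤ 1 / 2 := by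
    rw [div_le_iff₀ (by positivity)]
    have : (1 : ℝ) ≤ n := by exact_mod_cast hn
    nlinarith
  have hx0 : 0 < (1 - a) / (2 * n) := by
    apply div_pos <;> [linarith; positivity]
  obtain ⟨c, hc, hH⟩ := H (1 + x) (by rw [hx]; linarith) (by rw [hx]; linarith)
  set b := (1 + x) ^ n with hb
  have hb1 : (1 + a) / 2 ≤ b := by
    have h := one_add_mul_le_pow (a := x) (by rw [hx]; linarith) n
    have h2 : (n : ℝ) * x = -((1 - a) / 2) := by
      rw [hx]; field_simp
    rw [h2] at h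
    rw [hb]; linarith
  have hbpos : 0 < b := by linarith
  have hab : a / b < 1 := by
    rw [div_lt_one hbpos]; linarith
  have hab0 : 0 ≤ a / b := div_nonneg ha0 hbpos.le
  obtain ⟨N, hN⟩ := exists_pow_lt_of_lt_one hc hab
  obtain ⟨L, hL, hphi⟩ := pow_body hn K hK N
  have h1 := hH ((N + 1) * n) (Nat.mul_pos (Nat.succ_pos N) hn) L hL
  rw [hphi, mul_comm (N + 1) n, pow_mul, ← hb] at h1
  have h2 : c ≤ (a / b) ^ (N + 1) := by
    rw [div_pow, le_div_iff₀ (by positivity)]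
    exact h1
  have h3 : (a / b) ^ (N + 1) ≤ (a / b) ^ N :=
    pow_le_pow_of_le_one hab0 hab.le (Nat.le_succ N)
  linarith

/-- Descent in the dimension. -/
theorem descent {n m : ℕ} (hn : 0 < n) (hm : 0 < m)
    (H : ∀ K : Set (Fin (n + m) → ℝ), SymBody K → 1 ≤ phi K)
    (K : Set (Fin n → ℝ)) (hK : SymBody K) : 1 ≤ phi K := by
  obtain ⟨L, hL, hphi⟩ := exists_unit_body hm
  have h := H (prodF K L) (symBody_prodF K L hK hL)
  rwa [phi_prodF hn hm K L hK hL, hphi, mul_one] at h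

end P248S
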