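import Vale.Agent.Lib.P248S.Supp

/-! # P248 units S3-S6 and M: Cartesian products -/

namespace P248S
open MeasureTheory
variable {ι κ : Type*} [Fintype ι] [Fintype κ]

theorem dot_split (w z : ι ⊕ κ → ℝ) :
    w ⬝ᵥ z = (fun i => w (Sum.inl i)) ⬝ᵥ (fun i => z (Sum.inl i))
      + (fun j => w (Sum.inr j)) ⬝ᵥ (fun j => z (Sum.inr j)) := by
  unfold dotProduct
  rw [Fintype.sum_sum_type]

theorem symBody_prodG_aux (K : Set (ι → ℝ)) (L : Set (κ → ℝ)) (hK : SymBody K) (hL : SymBody L) :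
    SymBody (prodG K L) := by
  obtain ⟨hKc, hKv, ⟨x0, hx0⟩, hKs⟩ := hK
  obtain ⟨hLc, hLv, ⟨y0, hy0⟩, hLs⟩ := hL
  have c1 : Continuous (fun z : ι ⊕ κ → ℝ => (fun i => z (Sum.inl i) : ι → ℝ)) :=
    continuous_pi (fun i => continuous_apply _)
  have c2 : Continuous (fun z : ι ⊕ κ → ℝ => (fun j => z (Sum.inr j) : κ → ℝ)) :=
    continuous_pi (fun j => continuous_apply _)
  refine ⟨?_, ?_, ?_, ?_⟩
  · have h : prodG K L = (fun p : (ι → ℝ) × (κ → ℝ) => (Sum.elim p.1 p.2 : ι ⊕ κ → ℝ)) ''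
        (K ×ˢ L) := by
      ext z
      constructor
      · rintro ⟨h1, h2⟩
        refine ⟨(fun i => z (Sum.inl i), fun j => z (Sum.inr j)), ⟨h1, h2⟩, ?_⟩
        funext i
        rcases i with i | j <;> rfl
      · rintro ⟨⟨x, y⟩, ⟨hx, hy⟩, rfl⟩
        exact ⟨hx, hy⟩
    rw [h]
    refine (hKc.prod hLc).image ?_
    refine continuous_pi (fun i => ?_)
    rcases i with i | j
    · exact (continuous_apply i).comp continuous_fst
    · exact (continuous_apply j).comp continuous_snd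
  · intro z hz w hw a b ha hb hab
    exact ⟨hKv hz.1 hw.1 ha hb hab, hLv hz.2 hw.2 ha hb hab⟩
  · have hopen : IsOpen {z : ι ⊕ κ → ℝ | (fun i => z (Sum.inl i)) ∈ interior K ∧
        (fun j => z (Sum.inr j)) ∈ interior L} :=
      (isOpen_interior.preimage c1).inter (isOpen_interior.preimage c2)
    have hsub : {z : ι ⊕ κ → ℝ | (fun i => z (Sum.inl i)) ∈ interior K ∧
        (fun j => z (Sum.inr j)) ∈ interior L} ⊆ prodG K L :=
      fun z hz => ⟨interior_subset hz.1, interior_subset hz.2⟩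
    exact ⟨Sum.elim x0 y0, interior_maximal hsub hopen ⟨hx0, hy0⟩⟩
  · intro z hz
    exact ⟨hKs _ hz.1, hLs _ hz.2⟩

/-- S3.  `⟨Sum.elim x x', z⟩ = ⟨x, z ∘ inl⟩ + ⟨x', z ∘ inr⟩` (`Fintype.sum_sum_type`); the two suprema are
independent (`le_supp`, `supp_le`; for `≥` use `exists_lt_of_lt_csSup` or compactness). -/
theorem supp_prodG (K : Set (ι → ℝ)) (L : Set (κ → ℝ)) (hK : SymBody K) (hL : SymBody L)
    (z : ι ⊕ κ → ℝ) :
    supp (prodG K L) z
      = supp K (fun i => z (Sum.inl i)) + supp L (fun j => z (Sum.inr j)) := by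
  have hP := symBody_prodG_aux K L hK hL
  apply le_antisymm
  · refine supp_le _ hP z (fun w hw => ?_)
    rw [dot_split]
    exact add_le_add (le_supp K hK _ hw.1) (le_supp L hL _ hw.2)
  · have key : ∀ x ∈ K, ∀ y ∈ L, x ⬝ᵥ (fun i => z (Sum.inl i)) + y ⬝ᵥ (fun j => z (Sum.inr j))
        ≤ supp (prodG K L) z := by
      intro x hx y hy
      have := le_supp _ hP z (x := Sum.elim x y) ⟨hx, hy⟩
      rw [dot_split] at this
      exact this
    have h1 : ∀ y ∈ L, supp K (fun i => z (Sum.inl i))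
        ≤ supp (prodG K L) z - y ⬝ᵥ (fun j => z (Sum.inr j)) := by
      intro y hy
      refine supp_le K hK _ (fun x hx => ?_)
      linarith [key x hx y hy]
    have h2 : supp L (fun j => z (Sum.inr j))
        ≤ supp (prodG K L) z - supp K (fun i => z (Sum.inl i)) := by
      refine supp_le L hL _ (fun y hy => ?_)
      linarith [h1 y hy]
    linarith

/-- S4.  `MeasurableEquiv.sumPiEquivProdPi`, `volume_measurePreserving_sumPiEquivProdPi`,
`MeasureTheory.integral_prod_mul` (no integrability needed). -/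
theorem integral_split (F : (ι → ℝ) → ℝ) (G : (κ → ℝ) → ℝ) :
    ∫ z : ι ⊕ κ → ℝ, F (fun i => z (Sum.inl i)) * G (fun j => z (Sum.inr j))
      = (∫ x, F x) * ∫ y, G y := by
  set e := MeasurableEquiv.sumPiEquivProdPi (fun _ : ι ⊕ κ => ℝ) with he
  have h := (volume_measurePreserving_sumPiEquivProdPi (fun _ : ι ⊕ κ => ℝ)).integral_comp
    e.measurableEmbedding (fun p : (ι → ℝ) × (κ → ℝ) => F p.1 * G p.2)
  refine Eq.trans ?_ (h.trans ?_)
  · rfl
  · rw [Measure.volume_eq_prod]
    exact integral_prod_mul F G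

/-- S5. -/
theorem symBody_prodG (K : Set (ι → ℝ)) (L : Set (κ → ℝ)) (hK : SymBody K) (hL : SymBody L) :
    SymBody (prodG K L) := by
  exact symBody_prodG_aux K L hK hL

/-- S6.  `prodG K L` is the preimage of `K ×ˢ L` under `MeasurableEquiv.sumPiEquivProdPi`;
`MeasurePreserving.measure_preimage_equiv`, `Measure.volume_eq_prod`, `Measure.prod_prod`. -/
theorem volume_prodG (K : Set (ι → ℝ)) (L : Set (κ → ℝ)) :
    volume (prodG K L) = volume K * volume L := by
  set e := MeasurableEquiv.sumPiEquivProdPi (fun _ : ι ⊕ κ => ℝ) with he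
  have hpre : prodG K L = e ⁻¹' (K ×ˢ L) := by
    ext z
    exact Iff.rfl
  rw [hpre, (volume_measurePreserving_sumPiEquivProdPi
    (fun _ : ι ⊕ κ => ℝ)).measure_preimage_equiv, Measure.volume_eq_prod, Measure.prod_prod]

/-- M.  Multiplicativity of the normalised volume product. -/
theorem phi_prodG [Nonempty ι] [Nonempty κ] (K : Set (ι → ℝ)) (L : Set (κ → ℝ))
    (hK : SymBody K) (hL : SymBody L) : phi (prodG K L) = phi K * phi L := by
  have h1 := vol_polar K hK
  have h2 := vol_polar L hL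
  have h3 := vol_polar (prodG K L) (symBody_prodG K L hK hL)
  have h4 : (∫ z : ι ⊕ κ → ℝ, Real.exp (-(supp (prodG K L) z)))
      = (∫ x, Real.exp (-(supp K x))) * ∫ y, Real.exp (-(supp L y)) := by
    rw [← integral_split]
    congr 1
    funext z
    rw [supp_prodG K L hK hL, neg_add, Real.exp_add]
  unfold phi volProd
  rw [h1, h2, h3, h4, volume_prodG, ENNReal.toReal_mul, Fintype.card_sum, pow_add]
  have a1 : ((Fintype.card ι).factorial : ℝ) ≠ 0 := by positivity
  have a2 : ((Fintype.card κ).factorial : ℝ) ≠ 0 := by positivity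
  have a3 : ((Fintype.card ι + Fintype.card κ).factorial : ℝ) ≠ 0 := by positivity
  field_simp

end P248S
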