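import Mathlib

/-! # P248 (Mahler): definitions.  Bodies live in `ι → ℝ` with Lebesgue measure `volume`. -/

namespace P248S
open MeasureTheory

variable {ι κ : Type*} [Fintype ι] [Fintype κ]

/-- Origin-symmetric convex body in `ℝ^ι`. -/
def SymBody (K : Set (ι → ℝ)) : Prop :=
  IsCompact K ∧ Convex ℝ K ∧ (interior K).Nonempty ∧ ∀ x ∈ K, -x ∈ K

/-- The polar body `K° = {y : ⟨x, y⟩ ≤ 1 for all x ∈ K}`. -/
def polar (K : Set (ι → ℝ)) : Set (ι → ℝ) := {y | ∀ x ∈ K, x ⬝ᵥ y ≤ 1}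

/-- The volume product `|K| |K°|`. -/
noncomputable def volProd (K : Set (ι → ℝ)) : ℝ :=
  (volume K).toReal * (volume (polar K)).toReal

/-- The normalised volume product `n! |K| |K°| / 4^n`, `n = |ι|`. -/
noncomputable def phi (K : Set (ι → ℝ)) : ℝ :=
  (Fintype.card ι).factorial * volProd K / 4 ^ (Fintype.card ι)

/-- The support function `h_K(y) = sup_{x ∈ K} ⟨x, y⟩`. -/
noncomputable def supp (K : Set (ι → ℝ)) (y : ι → ℝ) : ℝ := sSup ((fun x => x ⬝ᵥ y) '' K)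

/-- The Cartesian product `K × L` in `ℝ^(ι ⊕ κ)`. -/
def prodG (K : Set (ι → ℝ)) (L : Set (κ → ℝ)) : Set (ι ⊕ κ → ℝ) :=
  {z | (fun i => z (Sum.inl i)) ∈ K ∧ (fun j => z (Sum.inr j)) ∈ L}

/-- Relabelling of the coordinates along a bijection `e : ι ≃ κ`. -/
def reix (e : ι ≃ κ) (K : Set (ι → ℝ)) : Set (κ → ℝ) := {z | (fun i => z (e i)) ∈ K}

/-- The Cartesian product `K × L` in `ℝ^(n+m)`: first `n` coordinates in `K`, last `m` in `L`. -/
def prodF {n m : ℕ} (K : Set (Fin n → ℝ)) (L : Set (Fin m → ℝ)) : Set (Fin (n + m) → ℝ) :=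
  {z | (fun i => z (Fin.castAdd m i)) ∈ K ∧ (fun j => z (Fin.natAdd n j)) ∈ L}

end P248S
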